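import Vale.Agent.P308.Defs
import Mathlib.Tactic

namespace Vale.Agent.P308

open Function

variable {V : Type*}

/-- `x 0, …, x (2ℓ+1)` is an augmenting path for the matching encoded by the involution `σ`. -/
structure AugPath (G : SimpleGraph V) (σ : V → V) (l : ℕ) (x : ℕ → V) : Prop where
  left : σ (x 0) = x 0
  right : σ (x (2 * l + 1)) = x (2 * l + 1)
  adj : ∀ t ≤ l, G.Adj (x (2 * t)) (x (2 * t + 1))
  mat : ∀ t < l, σ (x (2 * t + 1)) = x (2 * t + 2)
  inj : ∀ s t, s ≤ 2 * l + 1 → t ≤ 2 * l + 1 → x s = x t → s = t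

/-- the alternating walk -/
def walk (σ ρ : V → V) (a : V) : ℕ → V
  | 0 => a
  | n + 1 => if n % 2 = 0 then ρ (walk σ ρ a n) else σ (walk σ ρ a n)

lemma walk_odd (σ ρ : V → V) (a : V) (t : ℕ) : walk σ ρ a (2 * t + 1) = ρ (walk σ ρ a (2 * t)) := by
  simp [walk]

lemma walk_even (σ ρ : V → V) (a : V) (t : ℕ) :
    walk σ ρ a (2 * t + 2) = σ (walk σ ρ a (2 * t + 1)) := by
  have : (2 * t + 1) % 2 = 1 := by omega
  rw [walk]; simp [this]

lemma walk_inj {σ ρ : V → V} (hσ : Involutive σ) (hρ : Involutive ρ) (hρ' : ∀ v, ρ v ≠ v)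
    {a : V} (ha : σ a = a) {l : ℕ}
    (hl : ∀ t < l, σ (walk σ ρ a (2 * t + 1)) ≠ walk σ ρ a (2 * t + 1)) :
    ∀ j ≤ 2 * l + 1, ∀ i < j, walk σ ρ a i ≠ walk σ ρ a j := by
  intro j
  induction j using Nat.strong_induction_on with
  | _ j ih =>
    intro hj i hij heq
    rcases Nat.even_or_odd' j with ⟨s, rfl | rfl⟩
    · -- j even
      obtain ⟨s, rfl⟩ : ∃ s', s = s' + 1 := ⟨s - 1, by omega⟩
      have e1 : walk σ ρ a (2 * (s + 1)) = σ (walk σ ρ a (2 * s + 1)) := walk_even σ ρ a s
      rcases Nat.even_or_odd' i with ⟨r, rfl | rfl⟩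
      · rcases Nat.eq_zero_or_pos r with rfl | hr
        · have : walk σ ρ a 0 = walk σ ρ a (2 * s + 1) := by
            have h1 : σ (walk σ ρ a 0) = walk σ ρ a 0 := ha
            have h2 : walk σ ρ a 0 = σ (walk σ ρ a (2 * s + 1)) := by
              rw [← e1]; simpa using heq
            have := congrArg σ h2
            rw [hσ] at this
            rw [← this, h1]
          exact ih (2 * s + 1) (by omega) (by omega) 0 (by omega) this
        · obtain ⟨r, rfl⟩ : ∃ r', r = r' + 1 := ⟨r - 1, by omega⟩
          have e2 : walk σ ρ a (2 * (r + 1)) = σ (walk σ ρ a (2 * r + 1)) := walk_even σ ρ a r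
          rw [e1, e2] at heq
          exact ih (2 * s + 1) (by omega) (by omega) (2 * r + 1) (by omega) (hσ.injective heq)
      · have e2 : walk σ ρ a (2 * r + 2) = σ (walk σ ρ a (2 * r + 1)) := walk_even σ ρ a r
        rcases Nat.eq_or_lt_of_le (show r ≤ s by omega) with rfl | hrs
        · rw [e1] at heq
          exact hl r (by omega) heq.symm
        · have : walk σ ρ a (2 * r + 2) = walk σ ρ a (2 * s + 1) := by
            rw [e2, heq, e1, hσ]
          exact ih (2 * s + 1) (by omega) (by omega) (2 * r + 2) (by omega) this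
    · -- j odd
      have e1 := walk_odd σ ρ a s
      rcases Nat.even_or_odd' i with ⟨r, rfl | rfl⟩
      · have e2 := walk_odd σ ρ a r
        rcases Nat.eq_or_lt_of_le (show r ≤ s by omega) with rfl | hrs
        · rw [e1] at heq
          exact hρ' _ heq.symm
        · have : walk σ ρ a (2 * r + 1) = walk σ ρ a (2 * s) := by
            rw [e2, heq, e1, hρ]
          exact ih (2 * s) (by omega) (by omega) (2 * r + 1) (by omega) this
      · have e2 := walk_odd σ ρ a r
        rw [e1, e2] at heq
        exact ih (2 * s) (by omega) (by omega) (2 * r) (by omega) (hρ.injective heq)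

lemma exists_augPath [Finite V] {G : SimpleGraph V} {σ ρ : V → V} (hσ : Involutive σ)
    (hρ : Involutive ρ) (hρG : ∀ v, G.Adj v (ρ v)) {a : V} (ha : σ a = a) :
    ∃ l x, AugPath G σ l x ∧ x 0 = a := by
  classical
  have hρ' : ∀ v, ρ v ≠ v := fun v h => by
    have := hρG v
    rw [h] at this
    exact G.loopless.irrefl _ this
  have hex : ∃ t, σ (walk σ ρ a (2 * t + 1)) = walk σ ρ a (2 * t + 1) := by
    by_contra hne
    push Not at hne
    have hinj : Injective (walk σ ρ a) := by
      intro i j hij
      by_contra hne'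
      rcases lt_or_gt_of_ne hne' with h | h
      · exact walk_inj hσ hρ hρ' ha (l := j) (fun t _ => hne t) j (by omega) i h hij
      · exact walk_inj hσ hρ hρ' ha (l := i) (fun t _ => hne t) i (by omega) j h hij.symm
    exact not_injective_infinite_finite _ hinj
  refine ⟨Nat.find hex, walk σ ρ a, ⟨ha, Nat.find_spec hex, ?_, ?_, ?_⟩, rfl⟩
  · intro t _
    rw [walk_odd]; exact hρG _
  · intro t _
    exact (walk_even σ ρ a t).symm
  · intro s t hs ht hst
    by_contra hne'
    have key := walk_inj hσ hρ hρ' ha (l := Nat.find hex) (fun t ht => Nat.find_min hex ht)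
    rcases lt_or_gt_of_ne hne' with h | h
    · exact key t ht s h hst
    · exact key s hs t h hst.symm

/-- Shortcut by a chord from an even vertex to a later odd vertex. -/
lemma shortcut_forward {G : SimpleGraph V} {σ : V → V} {l : ℕ} {x : ℕ → V}
    (h : AugPath G σ l x) {i j : ℕ} (hij : i < j) (hj : j ≤ l)
    (hadj : G.Adj (x (2 * i)) (x (2 * j + 1))) :
    ∃ l' < l, ∃ x', AugPath G σ l' x' := by
  refine ⟨l - (j - i), by omega, fun t => if t ≤ 2 * i then x t else x (t + 2 * (j - i)), ?_⟩
  refine ⟨?_, ?_, ?_, ?_, ?_⟩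
  · simpa using h.left
  · have h1 : ¬ (2 * (l - (j - i)) + 1 ≤ 2 * i) := by omega
    have h2 : 2 * (l - (j - i)) + 1 + 2 * (j - i) = 2 * l + 1 := by omega
    simp only [h1, if_false, h2]
    exact h.right
  · intro t ht
    rcases lt_trichotomy t i with hti | rfl | hti
    · have h1 : 2 * t ≤ 2 * i := by omega
      have h2 : 2 * t + 1 ≤ 2 * i := by omega
      simp only [h1, h2, if_true]
      exact h.adj t (by omega)
    · have h2 : ¬ (2 * t + 1 ≤ 2 * t) := by omega
      have h3 : 2 * t + 1 + 2 * (j - t) = 2 * j + 1 := by omega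
      simp only [le_refl, if_true, h2, if_false, h3]
      exact hadj
    · have h1 : ¬ (2 * t ≤ 2 * i) := by omega
      have h2 : ¬ (2 * t + 1 ≤ 2 * i) := by omega
      have h3 : 2 * t + 2 * (j - i) = 2 * (t + (j - i)) := by omega
      have h4 : 2 * t + 1 + 2 * (j - i) = 2 * (t + (j - i)) + 1 := by omega
      simp only [h1, h2, if_false, h3, h4]
      exact h.adj _ (by omega)
  · intro t ht
    rcases lt_or_ge t i with hti | hti
    · have h1 : 2 * t + 1 ≤ 2 * i := by omega
      have h2 : 2 * t + 2 ≤ 2 * i := by omega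
      simp only [h1, h2, if_true]
      exact h.mat t (by omega)
    · have h1 : ¬ (2 * t + 1 ≤ 2 * i) := by omega
      have h2 : ¬ (2 * t + 2 ≤ 2 * i) := by omega
      have h3 : 2 * t + 1 + 2 * (j - i) = 2 * (t + (j - i)) + 1 := by omega
      have h4 : 2 * t + 2 + 2 * (j - i) = 2 * (t + (j - i)) + 2 := by omega
      simp only [h1, h2, if_false, h3, h4]
      exact h.mat _ (by omega)
  · intro s t hs ht hst
    split_ifs at hst with h1 h2 h2
    · exact h.inj s t (by omega) (by omega) hst
    · have := h.inj _ _ (by omega) (by omega) hst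
      omega
    · have := h.inj _ _ (by omega) (by omega) hst
      omega
    · have := h.inj _ _ (by omega) (by omega) hst
      omega

/-- Shortcut by an even-even chord crossed by an odd-odd chord. -/
lemma shortcut_cross {G : SimpleGraph V} {σ : V → V} (hσ : Involutive σ) {l : ℕ} {x : ℕ → V}
    (h : AugPath G σ l x) {i j p q : ℕ} (hip : i ≤ p) (hpj : p < j) (hjq : j ≤ q) (hq : q ≤ l)
    (hne : i < p ∨ j < q)
    (huu : G.Adj (x (2 * i)) (x (2 * j))) (hww : G.Adj (x (2 * p + 1)) (x (2 * q + 1))) :
    ∃ l' < l, ∃ x', AugPath G σ l' x' := by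
  set g : ℕ → ℕ := fun t => if t ≤ 2 * i then t else
    if t ≤ 2 * i + 2 * j - 2 * p then 2 * j + 2 * i + 1 - t else
      t + 2 * q + 2 * p - 2 * i - 2 * j with hg
  set l' := l + i + j - p - q with hl'
  have g1 : ∀ t, t ≤ 2 * i → g t = t := fun t ht => by simp only [hg]; rw [if_pos ht]
  have g2 : ∀ t, ¬ t ≤ 2 * i → t ≤ 2 * i + 2 * j - 2 * p → g t = 2 * j + 2 * i + 1 - t :=
    fun t ht ht' => by simp only [hg]; rw [if_neg ht, if_pos ht']
  have g3 : ∀ t, ¬ t ≤ 2 * i → ¬ t ≤ 2 * i + 2 * j - 2 * p →
      g t = t + 2 * q + 2 * p - 2 * i - 2 * j :=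
    fun t ht ht' => by simp only [hg]; rw [if_neg ht, if_neg ht']
  refine ⟨l', by omega, fun t => x (g t), ?_⟩
  refine ⟨?_, ?_, ?_, ?_, ?_⟩
  · simp only [g1 0 (by omega)]; exact h.left
  · have : g (2 * l' + 1) = 2 * l + 1 := by
      rw [g3 _ (by omega) (by omega)]; omega
    simp only [this]; exact h.right
  · intro t ht
    rcases lt_trichotomy t i with hti | rfl | hti
    · simp only [g1 (2 * t) (by omega), g1 (2 * t + 1) (by omega)]
      exact h.adj t (by omega)
    · have e : g (2 * t + 1) = 2 * j := by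
        rw [g2 _ (by omega) (by omega)]; omega
      simp only [g1 (2 * t) (by omega), e]
      exact huu
    · rcases lt_trichotomy (t + p) (i + j) with h1 | h1 | h1
      · have e1 : g (2 * t) = 2 * (j + i - t) + 1 := by
          rw [g2 _ (by omega) (by omega)]; omega
        have e2 : g (2 * t + 1) = 2 * (j + i - t) := by
          rw [g2 _ (by omega) (by omega)]; omega
        simp only [e1, e2]
        exact (h.adj _ (by omega)).symm
      · have e1 : g (2 * t) = 2 * p + 1 := by
          rw [g2 _ (by omega) (by omega)]; omega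
        have e2 : g (2 * t + 1) = 2 * q + 1 := by
          rw [g3 _ (by omega) (by omega)]; omega
        simp only [e1, e2]
        exact hww
      · have e1 : g (2 * t) = 2 * (t + q + p - i - j) := by
          rw [g3 _ (by omega) (by omega)]; omega
        have e2 : g (2 * t + 1) = 2 * (t + q + p - i - j) + 1 := by
          rw [g3 _ (by omega) (by omega)]; omega
        simp only [e1, e2]
        exact h.adj _ (by omega)
  · intro t ht
    rcases lt_or_ge t i with hti | hti
    · simp only [g1 (2 * t + 1) (by omega), g1 (2 * t + 2) (by omega)]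
      exact h.mat t (by omega)
    · rcases lt_or_ge (t + p) (i + j) with h1 | h1
      · have e1 : g (2 * t + 1) = 2 * (j + i - t - 1) + 2 := by
          rw [g2 _ (by omega) (by omega)]; omega
        have e2 : g (2 * t + 2) = 2 * (j + i - t - 1) + 1 := by
          rw [g2 _ (by omega) (by omega)]; omega
        simp only [e1, e2]
        rw [← h.mat (j + i - t - 1) (by omega), hσ]
      · have e1 : g (2 * t + 1) = 2 * (t + q + p - i - j) + 1 := by
          rw [g3 _ (by omega) (by omega)]; omega
        have e2 : g (2 * t + 2) = 2 * (t + q + p - i - j) + 2 := by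
          rw [g3 _ (by omega) (by omega)]; omega
        simp only [e1, e2]
        exact h.mat _ (by omega)
  · intro s t hs ht hst
    have hb : ∀ s, s ≤ 2 * l' + 1 → g s ≤ 2 * l + 1 := by
      intro s hs
      by_cases h1 : s ≤ 2 * i
      · rw [g1 s h1]; omega
      · by_cases h2 : s ≤ 2 * i + 2 * j - 2 * p
        · rw [g2 s h1 h2]; omega
        · rw [g3 s h1 h2]; omega
    have key := h.inj _ _ (hb s hs) (hb t ht) hst
    by_cases h1 : s ≤ 2 * i
    · rw [g1 s h1] at key
      by_cases h1' : t ≤ 2 * i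
      · rw [g1 t h1'] at key; omega
      · by_cases h2' : t ≤ 2 * i + 2 * j - 2 * p
        · rw [g2 t h1' h2'] at key; omega
        · rw [g3 t h1' h2'] at key; omega
    · by_cases h2 : s ≤ 2 * i + 2 * j - 2 * p
      · rw [g2 s h1 h2] at key
        by_cases h1' : t ≤ 2 * i
        · rw [g1 t h1'] at key; omega
        · by_cases h2' : t ≤ 2 * i + 2 * j - 2 * p
          · rw [g2 t h1' h2'] at key; omega
          · rw [g3 t h1' h2'] at key; omega
      · rw [g3 s h1 h2] at key
        by_cases h1' : t ≤ 2 * i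
        · rw [g1 t h1'] at key; omega
        · by_cases h2' : t ≤ 2 * i + 2 * j - 2 * p
          · rw [g2 t h1' h2'] at key; omega
          · rw [g3 t h1' h2'] at key; omega

/-- Shortest augmenting paths are short in graphs without large triangular systems. -/
lemma length_bound {G : SimpleGraph V} {σ : V → V} (hσ : Involutive σ) {k : ℕ}
    (hk : ¬ HasTriangularSystem G (k + 1)) {l : ℕ} {x : ℕ → V} (h : AugPath G σ l x)
    (hmin : ∀ l' < l, ∀ x', ¬ AugPath G σ l' x') : l + 1 ≤ k ^ 2 + 2 * k := by
  by_contra hcon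
  have hl : (k + 1) * (k + 1) ≤ l + 1 := by nlinarith
  -- forward chords do not exist
  have hF : ∀ i j, i < j → j ≤ l → ¬ G.Adj (x (2 * i)) (x (2 * j + 1)) := by
    intro i j hij hj hadj
    obtain ⟨l', hl', x', hx'⟩ := shortcut_forward h hij hj hadj
    exact hmin l' hl' x' hx'
  -- an even-even chord in every block
  have hblock : ∀ r ≤ k, ∃ i j, r * (k + 1) ≤ i ∧ i < j ∧ j < (r + 1) * (k + 1) ∧
      G.Adj (x (2 * i)) (x (2 * j)) := by
    intro r hr
    by_contra hno
    push Not at hno
    have hb : (r + 1) * (k + 1) ≤ l + 1 :=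
      le_trans (Nat.mul_le_mul_right _ (by omega)) hl
    have hr1 : (r + 1) * (k + 1) = r * (k + 1) + (k + 1) := by ring
    apply hk
    refine ⟨fun s => x (2 * (r * (k + 1) + s)), fun s => x (2 * (r * (k + 1) + s) + 1), ?_, ?_⟩
    · intro s
      have := s.2
      exact h.adj _ (by omega)
    · intro s t hst
      have h1 := s.2
      have h2 := t.2
      have h3 : (s : ℕ) < t := hst
      refine ⟨hno _ _ (by omega) (by omega) (by omega), hF _ _ (by omega) (by omega)⟩
  choose! I J hI1 hIJ hJ2 hadj using hblock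
  apply hk
  refine ⟨fun s => x (2 * (I (k - s)) + 1), fun s => x (2 * (I (k - s))), ?_, ?_⟩
  · intro s
    have hs := s.2
    have hb : ((k - s) + 1) * (k + 1) ≤ l + 1 :=
      le_trans (Nat.mul_le_mul_right _ (by omega)) hl
    have h1 := hIJ (k - s) (by omega)
    have h2 := hJ2 (k - s) (by omega)
    exact (h.adj _ (by omega)).symm
  · intro s t hst
    have hs := s.2
    have ht := t.2
    have h3 : (s : ℕ) < t := hst
    -- indices k - t < k - s
    have hb : ((k - s) + 1) * (k + 1) ≤ l + 1 :=
      le_trans (Nat.mul_le_mul_right _ (by omega)) hl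
    have h1 := hIJ (k - s) (by omega)
    have h2 := hJ2 (k - s) (by omega)
    have h4 := hI1 (k - s) (by omega)
    have h5 := hIJ (k - t) (by omega)
    have h6 := hJ2 (k - t) (by omega)
    have h7 : ((k - t) + 1) * (k + 1) ≤ (k - s) * (k + 1) :=
      Nat.mul_le_mul_right _ (by omega)
    have h8 : J (k - t) < I (k - s) := by omega
    constructor
    · intro hw
      obtain ⟨l', hl', x', hx'⟩ := shortcut_cross hσ h (i := I (k - t)) (j := J (k - t))
        (p := I (k - t)) (q := I (k - s)) le_rfl h5 h8.le (by omega) (Or.inr h8)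
        (hadj (k - t) (by omega)) hw.symm
      exact hmin l' hl' x' hx'
    · intro hw
      exact hF (I (k - t)) (I (k - s)) (by omega) (by omega) hw.symm

end Vale.Agent.P308
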