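import Vale.Agent.P308.AugPath

namespace Vale.Agent.P308

open Function

variable {V : Type*}

/-- matchings as involutions -/
structure IsNP (G : SimpleGraph V) (σ : V → V) : Prop where
  inv : Involutive σ
  adj : ∀ v, σ v ≠ v → G.Adj v (σ v)
  two : {v | σ v = v}.ncard = 2

structure IsPM (G : SimpleGraph V) (ρ : V → V) : Prop where
  inv : Involutive ρ
  adj : ∀ v, G.Adj v (ρ v)

/-- partner index on the path -/
def mate (s : ℕ) : ℕ := if s % 2 = 0 then s + 1 else s - 1

lemma mate_mate (s : ℕ) : mate (mate s) = s := by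
  unfold mate; split_ifs <;> omega

lemma mate_le {s l : ℕ} (h : s ≤ 2 * l + 1) : mate s ≤ 2 * l + 1 := by
  unfold mate; split_ifs <;> omega

open Classical in
/-- the matching obtained by augmenting along the path -/
noncomputable def augment (σ : V → V) (l : ℕ) (x : ℕ → V) (v : V) : V :=
  if h : ∃ s, s ≤ 2 * l + 1 ∧ x s = v then x (mate h.choose) else σ v

lemma augment_on {G : SimpleGraph V} {σ : V → V} {l : ℕ} {x : ℕ → V} (h : AugPath G σ l x)
    {s : ℕ} (hs : s ≤ 2 * l + 1) : augment σ l x (x s) = x (mate s) := by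
  have hex : ∃ s', s' ≤ 2 * l + 1 ∧ x s' = x s := ⟨s, hs, rfl⟩
  unfold augment
  rw [dif_pos hex]
  have := hex.choose_spec
  rw [h.inj _ _ this.1 hs this.2]

lemma augment_off {σ : V → V} {l : ℕ} {x : ℕ → V} {v : V}
    (hv : ¬ ∃ s, s ≤ 2 * l + 1 ∧ x s = v) : augment σ l x v = σ v := by
  unfold augment
  rw [dif_neg hv]

/-- index of the `σ`-partner on the path -/
def smate (l s : ℕ) : ℕ := if s = 0 then 0 else if s = 2 * l + 1 then 2 * l + 1 else
  if s % 2 = 0 then s - 1 else s + 1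

lemma smate_le {s l : ℕ} (h : s ≤ 2 * l + 1) : smate l s ≤ 2 * l + 1 := by
  unfold smate; split_ifs <;> omega

lemma sigma_on {G : SimpleGraph V} {σ : V → V} (hσ : Involutive σ) {l : ℕ} {x : ℕ → V}
    (h : AugPath G σ l x) {s : ℕ} (hs : s ≤ 2 * l + 1) : σ (x s) = x (smate l s) := by
  unfold smate
  split_ifs with h1 h2 h3
  · subst h1; exact h.left
  · subst h2; exact h.right
  · obtain ⟨t, rfl⟩ : ∃ t, s = 2 * t + 2 := ⟨s / 2 - 1, by omega⟩
    rw [← h.mat t (by omega), hσ]
    congr 1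
  · obtain ⟨t, rfl⟩ : ∃ t, s = 2 * t + 1 := ⟨s / 2, by omega⟩
    rw [h.mat t (by omega)]

lemma augment_isPM [Finite V] {G : SimpleGraph V} {σ : V → V} (hσ : IsNP G σ) {l : ℕ}
    {x : ℕ → V} (h : AugPath G σ l x) : IsPM G (augment σ l x) := by
  constructor
  · intro v
    by_cases hv : ∃ s, s ≤ 2 * l + 1 ∧ x s = v
    · obtain ⟨s, hs, rfl⟩ := hv
      rw [augment_on h hs, augment_on h (mate_le hs), mate_mate]
    · have hv' : ¬ ∃ s, s ≤ 2 * l + 1 ∧ x s = σ v := by
        rintro ⟨s, hs, hsv⟩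
        apply hv
        refine ⟨smate l s, smate_le hs, ?_⟩
        rw [← sigma_on hσ.inv h hs, hsv, hσ.inv]
      rw [augment_off hv, augment_off hv', hσ.inv]
  · intro v
    by_cases hv : ∃ s, s ≤ 2 * l + 1 ∧ x s = v
    · obtain ⟨s, hs, rfl⟩ := hv
      rw [augment_on h hs]
      unfold mate
      split_ifs with h1
      · obtain ⟨t, rfl⟩ : ∃ t, s = 2 * t := ⟨s / 2, by omega⟩
        exact h.adj t (by omega)
      · obtain ⟨t, rfl⟩ : ∃ t, s = 2 * t + 1 := ⟨s / 2, by omega⟩
        exact (h.adj t (by omega)).symm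
    · rw [augment_off hv]
      apply hσ.adj
      intro hfix
      -- fixed points are the two ends
      have h0 : x 0 ∈ {v | σ v = v} := h.left
      have h1 : x (2 * l + 1) ∈ {v | σ v = v} := h.right
      have hne : x 0 ≠ x (2 * l + 1) := fun e => by
        have := h.inj 0 (2 * l + 1) (by omega) le_rfl e
        omega
      have hv2 : v ∈ {v | σ v = v} := hfix
      obtain ⟨p, q, hpq, hset⟩ := Set.ncard_eq_two.mp hσ.two
      rw [hset] at h0 h1 hv2
      simp only [Set.mem_insert_iff, Set.mem_singleton_iff] at h0 h1 hv2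
      apply hv
      rcases hv2 with rfl | rfl
      · rcases h0 with h0 | h0
        · exact ⟨0, by omega, h0⟩
        · rcases h1 with h1 | h1
          · exact ⟨2 * l + 1, le_rfl, h1⟩
          · exact absurd (h0.trans h1.symm) hne
      · rcases h0 with h0 | h0
        · rcases h1 with h1 | h1
          · exact absurd (h0.trans h1.symm) hne
          · exact ⟨2 * l + 1, le_rfl, h1⟩
        · exact ⟨0, by omega, h0⟩

/-- the code of a path -/
def code (L l : ℕ) (x : ℕ → V) : Fin L → Option V :=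
  fun t => if (t : ℕ) ≤ l then some (x (2 * t)) else none

lemma decode {G : SimpleGraph V} {σ₁ σ₂ : V → V} (h1 : Involutive σ₁) (h2 : Involutive σ₂)
    {L l₁ l₂ : ℕ} {x₁ x₂ : ℕ → V} (hp1 : AugPath G σ₁ l₁ x₁) (hp2 : AugPath G σ₂ l₂ x₂)
    (hl1 : l₁ + 1 ≤ L) (hl2 : l₂ + 1 ≤ L)
    (hρ : augment σ₁ l₁ x₁ = augment σ₂ l₂ x₂) (hc : code L l₁ x₁ = code L l₂ x₂) :
    σ₁ = σ₂ := by
  have hl : l₁ = l₂ := by
    by_contra hne
    rcases lt_or_gt_of_ne hne with h | h
    · have := congrFun hc ⟨l₂, by omega⟩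
      simp only [code, le_refl, if_true] at this
      rw [if_neg (by omega)] at this
      exact absurd this (by simp)
    · have := congrFun hc ⟨l₁, by omega⟩
      simp only [code, le_refl, if_true] at this
      rw [if_neg (by omega)] at this
      exact absurd this (by simp)
  subst hl
  have heven : ∀ t ≤ l₁, x₁ (2 * t) = x₂ (2 * t) := by
    intro t ht
    have := congrFun hc ⟨t, by omega⟩
    simp only [code, ht, if_true] at this
    exact Option.some_injective _ this
  have hodd : ∀ t ≤ l₁, x₁ (2 * t + 1) = x₂ (2 * t + 1) := by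
    intro t ht
    have e1 := augment_on hp1 (s := 2 * t) (by omega)
    have e2 := augment_on hp2 (s := 2 * t) (by omega)
    have hm : mate (2 * t) = 2 * t + 1 := by unfold mate; split_ifs <;> omega
    rw [hm] at e1 e2
    rw [← e1, ← e2, hρ, heven t ht]
  have hx : ∀ s ≤ 2 * l₁ + 1, x₁ s = x₂ s := by
    intro s hs
    rcases Nat.even_or_odd' s with ⟨t, rfl | rfl⟩
    · exact heven t (by omega)
    · exact hodd t (by omega)
  funext v
  by_cases hv : ∃ s, s ≤ 2 * l₁ + 1 ∧ x₁ s = v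
  · obtain ⟨s, hs, rfl⟩ := hv
    rw [sigma_on h1 hp1 hs, hx s hs, sigma_on h2 hp2 hs, hx _ (smate_le hs)]
  · have hv' : ¬ ∃ s, s ≤ 2 * l₁ + 1 ∧ x₂ s = v := by
      rintro ⟨s, hs, hsv⟩
      exact hv ⟨s, hs, by rw [hx s hs, hsv]⟩
    have e1 : augment σ₁ l₁ x₁ v = σ₁ v := augment_off hv
    have e2 : augment σ₂ l₁ x₂ v = σ₂ v := augment_off hv'
    rw [← e1, ← e2, hρ]

lemma exists_min_augPath [Finite V] {G : SimpleGraph V} {σ ρ : V → V} (hσ : IsNP G σ)
    (hρ : IsPM G ρ) :
    ∃ l x, AugPath G σ l x ∧ ∀ l' < l, ∀ x', ¬ AugPath G σ l' x' := by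
  classical
  obtain ⟨p, q, hpq, hset⟩ := Set.ncard_eq_two.mp hσ.two
  have hp : σ p = p := by
    have : p ∈ {v | σ v = v} := by rw [hset]; simp
    exact this
  obtain ⟨l, x, hx, -⟩ := exists_augPath hσ.inv hρ.inv hρ.adj hp
  have hex : ∃ l, ∃ x, AugPath G σ l x := ⟨l, x, hx⟩
  obtain ⟨x', hx'⟩ := Nat.find_spec hex
  exact ⟨Nat.find hex, x', hx', fun l' hl' x'' hx'' => Nat.find_min hex hl' ⟨x'', hx''⟩⟩

lemma card_np_le [Fintype V] {G : SimpleGraph V} {k : ℕ}
    (hk : ¬ HasTriangularSystem G (k + 1)) (hpm : ∃ ρ, IsPM G ρ) :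
    Nat.card {σ : V → V // IsNP G σ} ≤
      (Fintype.card V + 1) ^ (k ^ 2 + 2 * k) * Nat.card {ρ : V → V // IsPM G ρ} := by
  classical
  obtain ⟨ρ, hρ⟩ := hpm
  choose l x hx hmin using fun σ : {σ : V → V // IsNP G σ} => exists_min_augPath σ.2 hρ
  have hlen : ∀ σ, l σ + 1 ≤ k ^ 2 + 2 * k := fun σ =>
    length_bound σ.2.inv hk (hx σ) (hmin σ)
  let F : {σ : V → V // IsNP G σ} → (Fin (k ^ 2 + 2 * k) → Option V) × {ρ : V → V // IsPM G ρ} :=
    fun σ => (code _ (l σ) (x σ), ⟨augment σ.1 (l σ) (x σ), augment_isPM σ.2 (hx σ)⟩)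
  have hF : Injective F := by
    intro σ₁ σ₂ h
    simp only [F, Prod.mk.injEq, Subtype.mk.injEq] at h
    exact Subtype.ext (decode σ₁.2.inv σ₂.2.inv (hx σ₁) (hx σ₂) (hlen σ₁) (hlen σ₂) h.2 h.1)
  have h1 := Nat.card_le_card_of_injective F hF
  rw [Nat.card_prod] at h1
  have h2 : Nat.card (Fin (k ^ 2 + 2 * k) → Option V) =
      (Fintype.card V + 1) ^ (k ^ 2 + 2 * k) := by
    rw [Nat.card_eq_fintype_card, Fintype.card_fun, Fintype.card_option, Fintype.card_fin]
  rwa [h2] at h1

open Classical in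
/-- the involution of a matching -/
noncomputable def toInv {G : SimpleGraph V} (M : G.Subgraph) (hM : M.IsMatching) (v : V) : V :=
  if h : v ∈ M.verts then (hM h).choose else v

lemma toInv_adj {G : SimpleGraph V} {M : G.Subgraph} (hM : M.IsMatching) {v : V}
    (h : v ∈ M.verts) : M.Adj v (toInv M hM v) := by
  unfold toInv; rw [dif_pos h]; exact (hM h).choose_spec.1

lemma toInv_unique {G : SimpleGraph V} {M : G.Subgraph} (hM : M.IsMatching) {v w : V}
    (h : M.Adj v w) : toInv M hM v = w := by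
  have hv := M.edge_vert h
  exact ((hM hv).unique (toInv_adj hM hv) h)

lemma toInv_off {G : SimpleGraph V} {M : G.Subgraph} (hM : M.IsMatching) {v : V}
    (h : v ∉ M.verts) : toInv M hM v = v := by
  unfold toInv; rw [dif_neg h]

lemma toInv_fix {G : SimpleGraph V} {M : G.Subgraph} (hM : M.IsMatching) (v : V) :
    toInv M hM v = v ↔ v ∉ M.verts := by
  constructor
  · intro h hv
    have := toInv_adj hM hv
    rw [h] at this
    exact M.loopless.irrefl _ this
  · exact toInv_off hM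

lemma toInv_inv {G : SimpleGraph V} {M : G.Subgraph} (hM : M.IsMatching) :
    Involutive (toInv M hM) := by
  intro v
  by_cases hv : v ∈ M.verts
  · exact toInv_unique hM (toInv_adj hM hv).symm
  · rw [toInv_off hM hv, toInv_off hM hv]

lemma toInv_isNP {G : SimpleGraph V} {M : G.Subgraph} (hM : M.IsMatching)
    (h2 : (M.vertsᶜ).ncard = 2) : IsNP G (toInv M hM) := by
  refine ⟨toInv_inv hM, ?_, ?_⟩
  · intro v hv
    rw [Ne, toInv_fix, not_not] at hv
    exact (toInv_adj hM hv).adj_sub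
  · have : {v | toInv M hM v = v} = M.vertsᶜ := by
      ext v
      simp [toInv_fix]
    rw [this, h2]

lemma toInv_injective {G : SimpleGraph V} {M N : G.Subgraph} (hM : M.IsMatching)
    (hN : N.IsMatching) (h : toInv M hM = toInv N hN) : M = N := by
  have hverts : M.verts = N.verts := by
    ext v
    have h1 := toInv_fix hM v
    have h2 := toInv_fix hN v
    rw [h] at h1
    tauto
  have key : ∀ {M N : G.Subgraph} (hM : M.IsMatching) (hN : N.IsMatching),
      toInv M hM = toInv N hN → M.verts = N.verts → ∀ v w, M.Adj v w → N.Adj v w := by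
    intro M N hM hN h hv v w hvw
    have h1 := toInv_unique hM hvw
    have h2 : v ∈ N.verts := hv ▸ M.edge_vert hvw
    have h3 := toInv_adj hN h2
    rw [← h, h1] at h3
    exact h3
  apply SimpleGraph.Subgraph.ext hverts
  ext v w
  exact ⟨key hM hN h hverts v w, key hN hM h.symm hverts.symm v w⟩

lemma numNearPerfect_le [Finite V] (G : SimpleGraph V) :
    numNearPerfect G ≤ Nat.card {σ : V → V // IsNP G σ} := by
  apply Nat.card_le_card_of_injective
    (fun M : {M : G.Subgraph // M.IsMatching ∧ (M.vertsᶜ).ncard = 2} =>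
      (⟨toInv M.1 M.2.1, toInv_isNP M.2.1 M.2.2⟩ : {σ : V → V // IsNP G σ}))
  intro M N h
  simp only [Subtype.mk.injEq] at h
  exact Subtype.ext (toInv_injective _ _ h)

/-- the subgraph of a fixed point free involution -/
def ofInv {G : SimpleGraph V} (ρ : V → V) (h : IsPM G ρ) : G.Subgraph where
  verts := Set.univ
  Adj v w := ρ v = w
  adj_sub := by
    intro v w hvw
    rw [← hvw]; exact h.adj v
  edge_vert := fun _ => Set.mem_univ _
  symm := ⟨by
    intro v w hvw
    rw [← hvw]; exact h.inv v⟩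

lemma ofInv_pm {G : SimpleGraph V} {ρ : V → V} (h : IsPM G ρ) :
    (ofInv ρ h).IsPerfectMatching := by
  refine ⟨?_, fun v => Set.mem_univ v⟩
  intro v _
  exact ⟨ρ v, rfl, fun w hw => Eq.symm (show ρ v = w from hw)⟩

lemma le_numPerfect [Finite V] (G : SimpleGraph V) :
    Nat.card {ρ : V → V // IsPM G ρ} ≤ numPerfect G := by
  apply Nat.card_le_card_of_injective
    (fun ρ : {ρ : V → V // IsPM G ρ} =>
      (⟨ofInv ρ.1 ρ.2, ofInv_pm ρ.2⟩ : {M : G.Subgraph // M.IsPerfectMatching}))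
  intro ρ₁ ρ₂ h
  simp only [Subtype.mk.injEq] at h
  apply Subtype.ext
  funext v
  have h1 : (ofInv ρ₁.1 ρ₁.2).Adj v (ρ₁.1 v) := rfl
  rw [h] at h1
  exact Eq.symm (show ρ₂.1 v = ρ₁.1 v from h1)

lemma exists_isPM {G : SimpleGraph V} {M : G.Subgraph} (hM : M.IsPerfectMatching) :
    ∃ ρ, IsPM G ρ :=
  ⟨toInv M hM.1, toInv_inv hM.1, fun v => (toInv_adj hM.1 (hM.2 v)).adj_sub⟩

/-- the main bound for graphs without triangular systems of size `k+1` -/
theorem main_triangular (k : ℕ) [Fintype V] (G : SimpleGraph V)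
    (hpm : ∃ M : G.Subgraph, M.IsPerfectMatching) (hk : ¬ HasTriangularSystem G (k + 1)) :
    numNearPerfect G ≤ (Fintype.card V + 1) ^ (k ^ 2 + 2 * k) * numPerfect G := by
  obtain ⟨M, hM⟩ := hpm
  calc numNearPerfect G ≤ Nat.card {σ : V → V // IsNP G σ} := numNearPerfect_le G
    _ ≤ (Fintype.card V + 1) ^ (k ^ 2 + 2 * k) * Nat.card {ρ : V → V // IsPM G ρ} :=
        card_np_le hk (exists_isPM hM)
    _ ≤ _ := Nat.mul_le_mul_left _ (le_numPerfect G)

/-- a triangular system of size `m` contains an independent set of size `m` -/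
lemma HasTriangularSystem.indep [Fintype V] {G : SimpleGraph V} {m : ℕ}
    (h : HasTriangularSystem G m) : m ≤ G.indepNum := by
  classical
  obtain ⟨a, b, hab, hno⟩ := h
  have hinj : Injective a := by
    intro i j hij
    by_contra hne
    rcases lt_or_gt_of_ne hne with h | h
    · exact (hno i j h).2 (hij ▸ hab j)
    · exact (hno j i h).2 (hij ▸ hab i)
  have hind : G.IsIndepSet ((Finset.univ.map ⟨a, hinj⟩ : Finset V) : Set V) := by
    intro v hv w hw hne
    simp only [Finset.coe_map, Embedding.coeFn_mk, Finset.coe_univ, Set.image_univ,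
      Set.mem_range] at hv hw
    obtain ⟨i, rfl⟩ := hv
    obtain ⟨j, rfl⟩ := hw
    have hij : i ≠ j := fun e => hne (by rw [e])
    rcases lt_or_gt_of_ne hij with h | h
    · exact (hno i j h).1
    · exact fun h' => (hno j i h).1 h'.symm
  have := hind.card_le_indepNum
  simpa using this

end Vale.Agent.P308
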