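import Mathlib.Combinatorics.SimpleGraph.Matching
import Mathlib.Combinatorics.SimpleGraph.Clique

namespace Vale.Agent.P308

variable {V : Type*}

/-- The number `Z(G)` of perfect matchings of `G`. -/
noncomputable def numPerfect (G : SimpleGraph V) : ℕ :=
  Nat.card {M : G.Subgraph // M.IsPerfectMatching}

/-- The number of near-perfect matchings of `G`: matchings leaving exactly two vertices
uncovered. -/
noncomputable def numNearPerfect (G : SimpleGraph V) : ℕ :=
  Nat.card {M : G.Subgraph // M.IsMatching ∧ (M.vertsᶜ).ncard = 2}

/-- A triangular system of size `m` in `G`: an independent family `a 0, …, a (m-1)` of vertices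
together with neighbours `b i` of `a i` such that `a i` is not adjacent to `b j` for `i < j`. -/
def HasTriangularSystem (G : SimpleGraph V) (m : ℕ) : Prop :=
  ∃ a b : Fin m → V, (∀ i, G.Adj (a i) (b i)) ∧
    ∀ i j, i < j → ¬ G.Adj (a i) (a j) ∧ ¬ G.Adj (a i) (b j)

end Vale.Agent.P308
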